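import Vale.Agent.P194.Reduction

set_option linter.unusedSectionVars false

/-! Zero divisors in group algebras: specialization to finite fields and to positive
characteristic by valuation rings. -/

namespace Vale.Agent.P201

open MonoidAlgebra Finset Vale.Agent.P194

universe u v w

/-- Coefficients of a nonzero element. -/
lemma exists_coeff_ne {R : Type*} [Semiring R] {G : Type*} {x : MonoidAlgebra R G} (hx : x ≠ 0) :
    ∃ g, x.coeff g ≠ 0 := by
  by_contra hcon
  apply hx
  ext g
  by_contra hg
  exact hcon ⟨g, hg⟩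

/-- If all finite extensions of `F` have no zero divisors in their group algebra, neither does
the group algebra of any extension field of `F`. -/
theorem nzd_of_finite_exts (F : Type u) (K : Type v) [Field F] [Field K] [Algebra F K]
    (G : Type w) [Group G]
    (hyp : ∀ (E : Type v) [Field E] [Algebra F E] [Module.Finite F E],
      NoZeroDivisors (MonoidAlgebra E G)) :
    NoZeroDivisors (MonoidAlgebra K G) := by
  classical
  refine ⟨fun {α β} h => ?_⟩
  by_contra hcon
  push Not at hcon
  obtain ⟨hα, hβ⟩ := hcon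
  let S : Finset K := α.coeff.frange ∪ β.coeff.frange
  let R : Subalgebra F K := Algebra.adjoin F (S : Set K)
  have hFT : Algebra.FiniteType F R :=
    (Subalgebra.fg_iff_finiteType R).mp (Subalgebra.fg_adjoin_finset S)
  have hmem : ∀ (x : MonoidAlgebra K G), (∀ y ∈ x.coeff.frange, y ∈ S) → ∀ g, x.coeff g ∈ R := by
    intro x hx g
    by_cases h0 : x.coeff g = 0
    · rw [h0]; exact R.zero_mem
    · exact Algebra.subset_adjoin (hx _ (Finsupp.mem_frange.mpr ⟨h0, g, rfl⟩))
  have hA : ∀ g, α.coeff g ∈ R := hmem _ (fun y hy => Finset.mem_union_left _ hy)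
  have hB : ∀ g, β.coeff g ∈ R := hmem _ (fun y hy => Finset.mem_union_right _ hy)
  obtain ⟨α', hα'⟩ := exists_lift_coeff R α hA
  obtain ⟨β', hβ'⟩ := exists_lift_coeff R β hB
  let φ : MonoidAlgebra R G →+* MonoidAlgebra K G := mapRingHom G ((R.val : R →ₐ[F] K) : R →+* K)
  have hφ : Function.Injective φ := mapRingHom_injective' _ Subtype.val_injective
  have h0 : α' * β' = 0 := by
    apply hφ
    rw [map_mul, map_zero]
    change φ α' * φ β' = 0
    rw [show φ α' = α from hα', show φ β' = β from hβ', h]
  have hα0 : α' ≠ 0 := by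
    rintro rfl
    apply hα
    rw [← hα', map_zero]
  have hβ0 : β' ≠ 0 := by
    rintro rfl
    apply hβ
    rw [← hβ', map_zero]
  obtain ⟨g, hg⟩ := exists_coeff_ne hα0
  obtain ⟨g', hg'⟩ := exists_coeff_ne hβ0
  obtain ⟨E, _, _, _, π, hπ⟩ := exists_finite_residue F R (α'.coeff g * β'.coeff g')
    (mul_ne_zero hg hg')
  have := hyp E
  let ψ : MonoidAlgebra R G →+* MonoidAlgebra E G := mapRingHom G π
  have h1 : ψ α' * ψ β' = 0 := by rw [← map_mul, h0, map_zero]
  rcases mul_eq_zero.mp h1 with h2 | h2
  · have := congrArg (fun z => z.coeff g) h2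
    simp only [ψ, coeff_mapRingHom, coeff_zero, Finsupp.coe_zero, Pi.zero_apply] at this
    apply hπ
    rw [map_mul, this, zero_mul]
  · have := congrArg (fun z => z.coeff g') h2
    simp only [ψ, coeff_mapRingHom, coeff_zero, Finsupp.coe_zero, Pi.zero_apply] at this
    apply hπ
    rw [map_mul, this, mul_zero]

/-- A valuation ring of a characteristic zero field in which `p` is not a unit. -/
lemma exists_valuationSubring_nonunit (K : Type*) [Field K] [CharZero K] (p : ℕ) (hp : p.Prime) :
    ∃ V : ValuationSubring K, (p : K) ∈ V.nonunits := by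
  let A : Subring K := (Int.castRingHom K).range
  let x : A := ⟨(p : K), ⟨(p : ℤ), by simp⟩⟩
  have hI : Ideal.span {x} ≠ ⊤ := by
    intro htop
    rw [Ideal.span_singleton_eq_top] at htop
    obtain ⟨y, hy⟩ := htop.exists_right_inv
    obtain ⟨⟨n, hn⟩, rfl⟩ : ∃ y' : {y' : A // True}, y'.1 = y := ⟨⟨y, trivial⟩, rfl⟩
    obtain ⟨m, hm⟩ := n.2
    have h1 : ((p : ℤ) * m : ℤ) = 1 := by
      have h2 : ((p : K)) * ((n : A) : K) = 1 := congrArg Subtype.val hy
      rw [← hm] at h2
      have : (((p : ℤ) * m : ℤ) : K) = ((1 : ℤ) : K) := by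
        push_cast
        simpa using h2
      exact_mod_cast this
    have h3 : (p : ℤ) ∣ 1 := ⟨m, h1.symm⟩
    have h4 : p ∣ 1 := by exact_mod_cast h3
    exact hp.one_lt.ne' (Nat.dvd_one.mp h4)
  obtain ⟨V, -, hV⟩ := Ideal.image_subset_nonunits_valuationSubring (Ideal.span {x}) hI
  refine ⟨V, hV ⟨x, Ideal.subset_span rfl, rfl⟩⟩

/-- Scaling a nonzero element into a valuation ring with some coefficient equal to one. -/
lemma exists_scale {K : Type*} [Field K] (V : ValuationSubring K) {G : Type*}
    (x : MonoidAlgebra K G) (hx : x ≠ 0) :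
    ∃ c : K, c ≠ 0 ∧ (∀ g, c * x.coeff g ∈ V) ∧ ∃ g₀, c * x.coeff g₀ = 1 := by
  classical
  have hne : x.coeff.support.Nonempty := by
    obtain ⟨g, hg⟩ := exists_coeff_ne hx
    exact ⟨g, Finsupp.mem_support_iff.mpr hg⟩
  obtain ⟨g₀, hg₀, hmax⟩ := Finset.exists_max_image x.coeff.support
    (fun g => V.valuation (x.coeff g)) hne
  have h0 : x.coeff g₀ ≠ 0 := Finsupp.mem_support_iff.mp hg₀
  refine ⟨(x.coeff g₀)⁻¹, inv_ne_zero h0, fun g => ?_, g₀, inv_mul_cancel₀ h0⟩
  by_cases hg : x.coeff g = 0
  · rw [hg, mul_zero]; exact V.zero_mem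
  · rw [← V.valuation_le_one_iff, map_mul, map_inv₀]
    have hv0 : V.valuation (x.coeff g₀) ≠ 0 := (Valuation.ne_zero_iff _).mpr h0
    have := hmax g (Finsupp.mem_support_iff.mpr hg)
    exact inv_mul_le_one_of_le₀ this zero_le

lemma exists_lift_valuation {K : Type*} [Field K] (V : ValuationSubring K) {G : Type*} [Group G]
    (x : MonoidAlgebra K G) (h : ∀ g, x.coeff g ∈ V) :
    ∃ x' : MonoidAlgebra V G, mapRingHom G V.subtype x' = x := by
  classical
  refine ⟨ofCoeff (Finsupp.onFinset x.coeff.support (fun g => ⟨x.coeff g, h g⟩) ?_), ?_⟩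
  · intro g hg
    simp only [Finsupp.mem_support_iff]
    intro h0
    apply hg
    ext
    simpa using h0
  · ext g
    simp

/-- Zero divisors in characteristic zero descend to a residue field in which `p` vanishes. -/
theorem nzd_char_zero_of_residue (K : Type u) [Field K] [CharZero K] (p : ℕ) (hp : p.Prime)
    (G : Type w) [Group G]
    (hyp : ∀ (k : Type u) [Field k] [CharP k p], NoZeroDivisors (MonoidAlgebra k G)) :
    NoZeroDivisors (MonoidAlgebra K G) := by
  classical
  refine ⟨fun {α β} h => ?_⟩
  by_contra hcon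
  push Not at hcon
  obtain ⟨hα, hβ⟩ := hcon
  obtain ⟨V, hV⟩ := exists_valuationSubring_nonunit K p hp
  obtain ⟨c, hc, hcV, g₁, hg₁⟩ := exists_scale V α hα
  obtain ⟨d, hd, hdV, g₂, hg₂⟩ := exists_scale V β hβ
  have hα1 : ∀ g, ((c • α).coeff g) ∈ V := fun g => by simpa using hcV g
  have hβ1 : ∀ g, ((d • β).coeff g) ∈ V := fun g => by simpa using hdV g
  obtain ⟨α', hα'⟩ := exists_lift_valuation V (c • α) hα1
  obtain ⟨β', hβ'⟩ := exists_lift_valuation V (d • β) hβ1
  let φ : MonoidAlgebra V G →+* MonoidAlgebra K G := mapRingHom G V.subtype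
  have hφ : Function.Injective φ := mapRingHom_injective' _ Subtype.val_injective
  have h0 : α' * β' = 0 := by
    apply hφ
    rw [map_mul, map_zero]
    change φ α' * φ β' = 0
    rw [show φ α' = c • α from hα', show φ β' = d • β from hβ', smul_mul_smul_comm, h, smul_zero]
  let k := IsLocalRing.ResidueField V
  let res : V →+* k := IsLocalRing.residue V
  have hpk : (p : k) = 0 := by
    have hpmem : ((p : V)) ∈ IsLocalRing.maximalIdeal V := by
      rw [IsLocalRing.mem_maximalIdeal, mem_nonunits_iff]
      have := (V.mem_nonunits_iff_exists_mem_maximalIdeal).mp hV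
      obtain ⟨h1, h2⟩ := this
      have h3 : (⟨(p : K), h1⟩ : V) = (p : V) := by
        apply Subtype.ext
        simp
      rw [← h3]
      rwa [IsLocalRing.mem_maximalIdeal, mem_nonunits_iff] at h2
    have : res (p : V) = 0 := (IsLocalRing.residue_eq_zero_iff _).mpr hpmem
    simpa using this
  have hchar : CharP k p := (CharP.charP_iff_prime_eq_zero hp).mpr hpk
  have hN := hyp k
  let ψ : MonoidAlgebra V G →+* MonoidAlgebra k G := mapRingHom G res
  have h1 : ψ α' * ψ β' = 0 := by rw [← map_mul, h0, map_zero]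
  have hone1 : α'.coeff g₁ = 1 := by
    apply Subtype.ext
    have := congrArg (fun z => z.coeff g₁) hα'
    simpa [hg₁] using this
  have hone2 : β'.coeff g₂ = 1 := by
    apply Subtype.ext
    have := congrArg (fun z => z.coeff g₂) hβ'
    simpa [hg₂] using this
  rcases mul_eq_zero.mp h1 with h2 | h2
  · have := congrArg (fun z => z.coeff g₁) h2
    simp only [ψ, coeff_mapRingHom, coeff_zero, Finsupp.coe_zero, Pi.zero_apply, hone1,
      map_one] at this
    exact one_ne_zero this
  · have := congrArg (fun z => z.coeff g₂) h2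
    simp only [ψ, coeff_mapRingHom, coeff_zero, Finsupp.coe_zero, Pi.zero_apply, hone2,
      map_one] at this
    exact one_ne_zero this

/-- Main reduction: no zero divisors over the algebraic closure of `ZMod p` implies no zero
divisors over every field of characteristic `p` or `0`. -/
theorem nzd_of_algebraicClosure (p : ℕ) [hp : Fact p.Prime] (G : Type w) [Group G]
    (hyp : NoZeroDivisors (MonoidAlgebra (AlgebraicClosure (ZMod p)) G))
    (K : Type u) [Field K] (hK : CharP K p ∨ CharZero K) :
    NoZeroDivisors (MonoidAlgebra K G) := by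
  have key : ∀ (k : Type u) [Field k] [CharP k p], NoZeroDivisors (MonoidAlgebra k G) := by
    intro k _ _
    letI : Algebra (ZMod p) k := ZMod.algebra k p
    refine nzd_of_finite_exts (ZMod p) k G ?_
    intro E _ _ _
    have : Algebra.IsAlgebraic (ZMod p) E := Algebra.IsAlgebraic.of_finite _ _
    let ι : E →ₐ[ZMod p] AlgebraicClosure (ZMod p) := IsAlgClosed.lift
    let Ψ : MonoidAlgebra E G →+* MonoidAlgebra (AlgebraicClosure (ZMod p)) G :=
      mapRingHom G (ι : E →+* AlgebraicClosure (ZMod p))
    exact Function.Injective.noZeroDivisors Ψ (mapRingHom_injective' _ ι.toRingHom.injective)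
      (map_zero Ψ) (map_mul Ψ)
  rcases hK with hK | hK
  · exact key K
  · exact nzd_char_zero_of_residue K p hp.out G key

end Vale.Agent.P201
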